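import Vale.Agent.P181.BL.Defs
import Vale.Agent.P181.TL.H248.T4

set_option autoImplicit false

/-!
# P181, BL (B4): the lift of all tails and all labels of a family
-/

open MvPolynomial

namespace Vale.Agent.P181.BL.H540

open Vale.Agent.P181.T4 (HW)
open Vale.Agent.P181.SZ (PK)
open Vale.Agent.P181.TL (KK)
open Vale.Agent.P181.DGx.H248
open Vale.Agent.P181.DU.H248 (sb_equiv tr tr_apply coeff_sb_equiv split_equiv)
open Vale.Agent.P181.TL.H248 (St mem_St sym_mem_PK)

section frame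

variable {n r : ℕ} {ι η : Type}

lemma fr_inl (g : η → Fin r) (i : Fin n) (j : ι) :
    fr n g (X (i, Sum.inl j) : MvPolynomial (Fin n × (ι ⊕ η)) ℂ) = X (i, j) := by
  rw [fr, aeval_X]
  rfl

lemma fr_inr (g : η → Fin r) (i : Fin n) (h : η) :
    fr n g (X (i, Sum.inr h) : MvPolynomial (Fin n × (ι ⊕ η)) ℂ) =
      if (i : ℕ) = (g h : ℕ) then 1 else 0 := by
  rw [fr, aeval_X]
  rfl

/-- The frame specialization commutes with the permutations which preserve the frame. -/
lemma fr_rename (g : η → Fin r) (e : Equiv.Perm (ι ⊕ η)) (τ : ι ≃ ι) (ρ : η ≃ η)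
    (he : ∀ x, e.symm x = Sum.map τ ρ x) (hρ : ∀ h, g (ρ h) = g h)
    (G : MvPolynomial (Fin n × (ι ⊕ η)) ℂ) :
    fr n g (rename (fun q : Fin n × (ι ⊕ η) => (q.1, e.symm q.2)) G) =
      rename (fun q : Fin n × ι => (q.1, τ q.2)) (fr n g G) := by
  have h2 : (fr n g).comp (rename (R := ℂ) (fun q : Fin n × (ι ⊕ η) => (q.1, e.symm q.2))) =
      (rename (R := ℂ) (fun q : Fin n × ι => (q.1, τ q.2))).comp (fr n g) := by
    apply MvPolynomial.algHom_ext
    rintro ⟨i, x⟩
    rw [AlgHom.comp_apply, AlgHom.comp_apply, rename_X]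
    simp only [he]
    rcases x with j | h
    · have e1 : Sum.map τ ρ (Sum.inl j) = Sum.inl (τ j) := rfl
      rw [e1, fr_inl, fr_inl, rename_X]
    · have e1 : Sum.map τ ρ (Sum.inr h) = Sum.inr (ρ h) := rfl
      rw [e1, fr_inr, fr_inr, hρ]
      split_ifs
      · rw [map_one]
      · rw [map_zero]
  exact DFunLike.congr_fun h2 G

end frame

section labels

variable {k r : ℕ} {ι : Type} [Fintype ι]

/-- The variables of the labels. -/
def fL (k r : ℕ) {ι : Type} (q : Fin r × ι) : Fin (k + r) × ι := (⟨(q.1 : ℕ), by omega⟩, q.2)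

/-- The variables of the tail. -/
def fO (k r : ℕ) {ι : Type} (q : Fin k × ι) : Fin (k + r) × ι := (lo r q.1, q.2)

omit [Fintype ι] in
lemma fL_inj : Function.Injective (fL k r : Fin r × ι → Fin (k + r) × ι) := by
  rintro ⟨i, x⟩ ⟨j, y⟩ h
  have h1 := congrArg (fun q : Fin (k + r) × ι => (q.1 : ℕ)) h
  have h2 := congrArg Prod.snd h
  exact Prod.ext (Fin.ext h1) h2

omit [Fintype ι] in
lemma fO_inj : Function.Injective (fO k r : Fin k × ι → Fin (k + r) × ι) := by
  rintro ⟨i, x⟩ ⟨j, y⟩ h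
  have h1 : (i : ℕ) + r = (j : ℕ) + r := congrArg (fun q : Fin (k + r) × ι => (q.1 : ℕ)) h
  have h2 := congrArg Prod.snd h
  exact Prod.ext (Fin.ext (Nat.add_right_cancel h1)) h2

omit [Fintype ι] in
lemma fL_notin (q : Fin r × ι) : fL k r q ∉ Set.range (fO k r : Fin k × ι → Fin (k + r) × ι) := by
  rintro ⟨p, hp⟩
  have h1 : (p.1 : ℕ) + r = (q.1 : ℕ) := congrArg (fun q : Fin (k + r) × ι => (q.1 : ℕ)) hp
  have := q.1.2
  omega

omit [Fintype ι] in
lemma fO_notin (q : Fin k × ι) : fO k r q ∉ Set.range (fL k r : Fin r × ι → Fin (k + r) × ι) := by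
  rintro ⟨p, hp⟩
  have h1 : (p.1 : ℕ) = (q.1 : ℕ) + r := congrArg (fun q : Fin (k + r) × ι => (q.1 : ℕ)) hp
  have := p.1.2
  omega

/-- The exponents of the labels. -/
noncomputable def ev (k : ℕ) {r : ℕ} (v : Fin r × ι → ℕ) : Fin (k + r) × ι →₀ ℕ :=
  Finsupp.mapDomain (fL k r) (Finsupp.equivFunOnFinite.symm v)

lemma ev_fL (v : Fin r × ι → ℕ) (q : Fin r × ι) : ev k v (fL k r q) = v q := by
  rw [ev, Finsupp.mapDomain_apply fL_inj]
  rfl

lemma ev_fO (v : Fin r × ι → ℕ) (q : Fin k × ι) : ev k v (fO k r q) = 0 := by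
  rw [ev, Finsupp.mapDomain_of_notMem_range _ _ (fO_notin q)]

lemma lab_eq (v : Fin r × ι → ℕ) : lab k r v = monomial (ev k v) (1 : ℂ) := by
  have h1 : (monomial (Finsupp.equivFunOnFinite.symm v) (1 : ℂ) : MvPolynomial (Fin r × ι) ℂ) =
      ∏ q, X q ^ v q := by
    rw [monomial_eq, C_1, one_mul, Finsupp.prod_fintype _ _ fun i => pow_zero _]
    rfl
  rw [ev, ← rename_monomial, h1, map_prod]
  refine Finset.prod_congr rfl fun q _ => ?_
  rw [map_pow, rename_X]
  rfl

lemma coeff_lab_ne {v : Fin r × ι → ℕ} {F : MvPolynomial (Fin k × ι) ℂ} {W}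
    (h : coeff W (lab k r v * rename (fO k r) F) ≠ 0) (q : Fin r × ι) :
    W (fL k r q) = v q := by
  rw [lab_eq, coeff_monomial_mul'] at h
  by_cases hle : ev k v ≤ W
  · rw [if_pos hle, one_mul] at h
    obtain ⟨d, hd, -⟩ := coeff_rename_ne_zero _ _ _ h
    have h1 : (W - ev k v) (fL k r q) = 0 := by
      rw [← hd, Finsupp.mapDomain_of_notMem_range _ _ (fL_notin q)]
    rw [Finsupp.tsub_apply, ev_fL] at h1
    have h2 := hle (fL k r q)
    rw [ev_fL] at h2
    omega
  · rw [if_neg hle] at h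
    exact absurd rfl h

lemma coeff_lab (v : Fin r × ι → ℕ) (F : MvPolynomial (Fin k × ι) ℂ) (w) :
    coeff (ev k v + Finsupp.mapDomain (fO k r) w) (lab k r v * rename (fO k r) F) = coeff w F := by
  rw [lab_eq, coeff_monomial_mul, one_mul, coeff_rename_mapDomain _ fO_inj]

lemma pt_fL (v : Fin r × ι → ℕ) (w : Fin k × ι →₀ ℕ) (q : Fin r × ι) :
    (ev k v + Finsupp.mapDomain (fO k r) w) (fL k r q) = v q := by
  rw [Finsupp.add_apply, ev_fL, Finsupp.mapDomain_of_notMem_range _ _ (fL_notin q), add_zero]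

end labels

open scoped Classical in
/-- **(B4)** the lift of all tails and all labels of a family. -/
theorem liftR (hO : OneR) : LiftR := by
  intro k r ι η _ _ g s p c ms al tau VS hr h1 hp h2 h3 h4 h5 h6 h7 h8
  have hex : ∀ v : {v // v ∈ VS}, PsiR k r ι η g c v.1 p al tau := by
    intro v
    refine hO k r ι η g c v.1 p al tau hr h2 h6 ?_ ?_
    · rw [Fintype.sum_prod_type, Finset.sum_congr rfl fun l _ => h4 v.1 v.2 l]
      exact h7
    · intro l
      rw [h4 v.1 v.2 l, Finset.sum_filter]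
      exact h8 l
  choose m Ψ hm hΨ1 hΨ2 hΨ3 using hex
  let W := {v // v ∈ VS} → KK (k + 1) ι c tau
  have hmem : ∀ v F, (∑ e ∈ St (Sum.elim s p),
      (sb (k + 1 + r) e (fun _ => 1)).toLinearMap ∘ₗ Ψ v) F
      ∈ PK (k + 1 + r) (ι ⊕ η) (Sum.elim s p) (ap r al tau) := by
    intro v F
    rw [LinearMap.sum_apply]
    refine sym_mem_PK (Sum.elim s p) (ap r al tau) (H := Ψ v F) (hΨ1 v F) ?_
    intro w hw x
    rw [hΨ2 v F w hw x]
    rcases x with j | h
    · rw [Sum.elim_inl, Sum.elim_inl, h3 v.1 v.2 j]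
    · rw [Sum.elim_inr, Sum.elim_inr]
  let Λ : W →ₗ[ℂ] PK (k + 1 + r) (ι ⊕ η) (Sum.elim s p) (ap r al tau) :=
    ∑ v : {v // v ∈ VS}, ((∑ e ∈ St (Sum.elim s p),
      (sb (k + 1 + r) e (fun _ => 1)).toLinearMap ∘ₗ Ψ v).codRestrict
        (PK (k + 1 + r) (ι ⊕ η) (Sum.elim s p) (ap r al tau)) (hmem v)) ∘ₗ LinearMap.proj v
  have hΛ : ∀ x : W, ((Λ x : PK (k + 1 + r) (ι ⊕ η) (Sum.elim s p) (ap r al tau)) :
      MvPolynomial (Fin (k + 1 + r) × (ι ⊕ η)) ℂ) = ∑ v : {v // v ∈ VS},
        ∑ e ∈ St (Sum.elim s p), sb (k + 1 + r) e (fun _ => 1) (Ψ v (x v)) := by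
    intro x
    rw [LinearMap.sum_apply, Submodule.coe_sum]
    refine Finset.sum_congr rfl fun v _ => ?_
    have h9 : ((∑ e ∈ St (Sum.elim s p),
        (sb (k + 1 + r) e (fun _ => 1)).toLinearMap ∘ₗ Ψ v) (x v)) =
          ∑ e ∈ St (Sum.elim s p), sb (k + 1 + r) e (fun _ => 1) (Ψ v (x v)) := by
      rw [LinearMap.sum_apply]
      rfl
    rw [← h9]
    rfl
  -- the permutations split
  have hsplit : ∀ e ∈ St (Sum.elim s p), ∃ (τ : ι ≃ ι) (ρ : η ≃ η),
      (∀ x, e.symm x = Sum.map τ ρ x) ∧ (∀ j, s (τ j) = s j) ∧ ∀ h, g (ρ h) = g h := by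
    intro e he
    have he' : ∀ x, Sum.elim s p (e.symm x) = Sum.elim s p x := fun x => by
      have := mem_St.1 he (e.symm x)
      rw [Equiv.apply_symm_apply] at this
      exact this.symm
    obtain ⟨τ, ρ, h9⟩ := split_equiv e.symm (fun j => by
      rcases h : e.symm (Sum.inl j) with j' | h'
      · exact ⟨j', rfl⟩
      · exfalso
        have h10 := he' (Sum.inl j)
        rw [h, Sum.elim_inl, Sum.elim_inr] at h10
        have := h1 j h'
        omega) (fun x => by
      rcases h : e.symm (Sum.inr x) with j' | h'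
      · exfalso
        have h10 := he' (Sum.inr x)
        rw [h, Sum.elim_inl, Sum.elim_inr] at h10
        have := h1 j' x
        omega
      · exact ⟨h', rfl⟩)
    refine ⟨τ, ρ, h9, fun j => ?_, fun h => ?_⟩
    · have h10 := he' (Sum.inl j)
      rw [h9] at h10
      exact h10
    · have h10 := he' (Sum.inr h)
      rw [h9] at h10
      exact hp _ _ h10
  have hinj : Function.Injective Λ := by
    rw [← LinearMap.ker_eq_bot, LinearMap.ker_eq_bot']
    intro x hx
    have hx' := hΛ x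
    rw [hx, Submodule.coe_zero] at hx'
    funext v0
    apply Subtype.ext
    ext w
    rw [Pi.zero_apply, Submodule.coe_zero, coeff_zero]
    by_contra hw
    let W0 := ev (k + 1) v0.1 + Finsupp.mapDomain (fO (k + 1) r) w
    have hkey : ∀ (v : {v // v ∈ VS}) (e : Equiv.Perm (ι ⊕ η)), e ∈ St (Sum.elim s p) →
        coeff W0 (fr (k + 1 + r) g (sb (k + 1 + r) e (fun _ => 1) (Ψ v (x v)))) ≠ 0 →
        v = v0 ∧ coeff W0 (fr (k + 1 + r) g (sb (k + 1 + r) e (fun _ => 1) (Ψ v (x v)))) =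
          m v0 * coeff w (x v0 : MvPolynomial (Fin (k + 1) × ι) ℂ) := by
      intro v e he hne
      obtain ⟨τ, ρ, h9, h10, h10'⟩ := hsplit e he
      rw [sb_equiv, fr_rename g e τ ρ h9 h10', hΨ3] at hne ⊢
      have h11 : rename (fun q : Fin (k + 1 + r) × ι => (q.1, τ q.2))
          ((m v : ℂ) • (lab (k + 1) r v.1 * rename (fun q : Fin (k + 1) × ι => (lo r q.1, q.2))
            (x v : MvPolynomial (Fin (k + 1) × ι) ℂ))) =
          sb (k + 1 + r) τ.symm (fun _ => 1)
            ((m v : ℂ) • (lab (k + 1) r v.1 * rename (fO (k + 1) r)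
              (x v : MvPolynomial (Fin (k + 1) × ι) ℂ))) := by
        rw [sb_equiv, Equiv.symm_symm]
        rfl
      rw [h11, coeff_sb_equiv, coeff_smul, smul_eq_mul] at hne ⊢
      have h12 := coeff_lab_ne (right_ne_zero_of_mul hne)
      have h13 : ∀ l j, v0.1 (l, τ j) = v.1 (l, j) := by
        intro l j
        rw [← h12 (l, j), ← pt_fL v0.1 w (l, τ j)]
        have h14 : fL (k + 1) r (l, j) = ((fL (k + 1) r (l, j)).1, j) := rfl
        rw [h14, tr_apply, Equiv.symm_symm]
        rfl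
      have h14 : ∀ j, τ j = j := by
        intro j
        by_contra h15
        obtain ⟨l, hl⟩ := h5 v.1 v.2 v0.1 v0.2 j (τ j) (h10 j).symm (Ne.symm h15)
        exact hl (h13 l j).symm
      have h15 : v = v0 := by
        apply Subtype.ext
        funext q
        have := h13 q.1 q.2
        rw [h14] at this
        exact this.symm
      refine ⟨h15, ?_⟩
      subst h15
      have h16 : tr τ.symm W0 = W0 := by
        ext ⟨i, j⟩
        rw [tr_apply, Equiv.symm_symm, h14]
      rw [h16, coeff_lab]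
    have h9 := congrArg (fun P => coeff W0 (fr (k + 1 + r) g P)) hx'
    beta_reduce at h9
    rw [map_zero, coeff_zero, map_sum, coeff_sum, Finset.sum_eq_single v0] at h9
    · rw [map_sum, coeff_sum] at h9
      have h10 : ∀ e ∈ St (Sum.elim s p), coeff W0 (fr (k + 1 + r) g
          (sb (k + 1 + r) e (fun _ => 1) (Ψ v0 (x v0)))) =
          if coeff W0 (fr (k + 1 + r) g
            (sb (k + 1 + r) e (fun _ => 1) (Ψ v0 (x v0)))) = 0 then 0 else
              m v0 * coeff w (x v0 : MvPolynomial (Fin (k + 1) × ι) ℂ) := by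
        intro e he
        split_ifs with h
        · exact h
        · exact (hkey v0 e he h).2
      rw [Finset.sum_congr rfl h10, Finset.sum_ite, Finset.sum_const_zero, zero_add,
        Finset.sum_const, nsmul_eq_mul] at h9
      have hm0 : (m v0 : ℂ) ≠ 0 := Nat.cast_ne_zero.2 (hm v0)
      refine (mul_ne_zero ?_ (mul_ne_zero hm0 hw)) h9.symm
      rw [Nat.cast_ne_zero, ← Nat.pos_iff_ne_zero, Finset.card_pos]
      refine ⟨1, Finset.mem_filter.2 ⟨mem_St.2 fun x => rfl, ?_⟩⟩
      rw [sb_equiv, fr_rename g 1 (Equiv.refl _) (Equiv.refl _) (fun x => by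
        rcases x with j | h <;> rfl) (fun _ => rfl), hΨ3]
      have h16 : (fun q : Fin (k + 1 + r) × ι => (q.1, (Equiv.refl ι) q.2)) = id := by
        funext q
        rfl
      rw [h16, rename_id_apply, coeff_smul, smul_eq_mul]
      refine mul_ne_zero hm0 ?_
      have h17 := coeff_lab v0.1 (x v0 : MvPolynomial (Fin (k + 1) × ι) ℂ) w
      intro h18
      exact hw (h17.symm.trans h18)
    · intro v _ hv
      rw [map_sum, coeff_sum]
      refine Finset.sum_eq_zero fun e he => ?_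
      by_contra h
      exact hv (hkey v e he h).1
    · intro h'
      exact absurd (Finset.mem_univ _) h'
  have hfr : Module.finrank ℂ W = VS.card * Module.finrank ℂ (KK (k + 1) ι c tau) := by
    rw [Module.finrank_pi_fintype, Finset.sum_const, smul_eq_mul, Finset.card_univ,
      Fintype.card_coe]
  have h9 := LinearMap.finrank_le_finrank_of_injective hinj
  rw [hfr] at h9
  exact h9

end Vale.Agent.P181.BL.H540
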